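import Vale.Agent.P196.Periodic

/-!
P192: elements of finite order of an eventually periodic group are eventually trivial on a
finite-index subgroup.
-/

namespace Vale.Agent.P192

open Vale.Agent.P196

variable {G : Type*} [Group G]

theorem right_germ {σ : G →* Equiv.Perm ℤ} {P : ℤ} (hP : 0 < P) (hper : RightPer σ P) :
    ∃ H : Subgroup G, H.FiniteIndex ∧
      ∀ g ∈ H, IsOfFinOrder g → ∃ M : ℤ, ∀ m, M ≤ m → σ g m = m := by
  classical
  choose M hM using hper
  let K : G → ℤ → ℕ := fun g m => (M g - m).toNat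
  let θ : G → ℤ → ℤ := fun g m => σ g (m + K g m * P) - K g m * P
  have hθ : ∀ g m, ∀ k : ℕ, K g m ≤ k → σ g (m + k * P) = θ g m + k * P := by
    intro g m k hk
    obtain ⟨d, rfl⟩ := Nat.exists_eq_add_of_le hk
    have hge : M g ≤ m + (K g m) * P := by
      have : (M g - m) ≤ (K g m : ℤ) := Int.self_le_toNat _
      nlinarith [Int.natCast_nonneg (K g m)]
    have := rightPer_nsmul hP (hM g) d _ hge
    simp only [θ]
    push_cast at this ⊢
    rw [show m + ((K g m : ℤ) + d) * P = m + K g m * P + d * P by ring, this]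
    ring
  have hone : ∀ m, θ 1 m = m := fun m => by simp [θ]
  have hmul : ∀ g h m, θ (g * h) m = θ g (θ h m) := by
    intro g h m
    let k := max (max (K (g * h) m) (K h m)) (K g (θ h m))
    have h1 := hθ (g * h) m k (le_trans (le_max_left _ _) (le_max_left _ _))
    rw [map_mul, Equiv.Perm.mul_apply, hθ h m k (le_trans (le_max_right _ _) (le_max_left _ _)),
      hθ g (θ h m) k (le_max_right _ _)] at h1
    linarith
  have hshift : ∀ g m, θ g (m + P) = θ g m + P := by
    intro g m
    let k := max (K g (m + P)) (K g m)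
    have h1 := hθ g (m + P) k (le_max_left _ _)
    have h2 := hθ g m (k + 1) (le_trans (le_max_right _ _) (Nat.le_succ _))
    rw [show m + P + (k : ℤ) * P = m + ((k + 1 : ℕ) : ℤ) * P by push_cast; ring, h2] at h1
    push_cast at h1
    linarith
  have hshiftk : ∀ g m (k : ℤ), θ g (m + k * P) = θ g m + k * P := by
    intro g m k
    induction k using Int.induction_on with
    | zero => simp
    | succ k ih =>
      rw [show m + ((k : ℤ) + 1) * P = m + k * P + P by ring, hshift, ih]; ring
    | pred k ih =>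
      have h := hshift g (m + (-(k : ℤ) - 1) * P)
      rw [show m + (-(k : ℤ) - 1) * P + P = m + -(k : ℤ) * P by ring, ih] at h
      linarith
  obtain ⟨p, rfl⟩ : ∃ p : ℕ, P = p := ⟨P.toNat, (Int.toNat_of_nonneg hP.le).symm⟩
  have hp : NeZero p := ⟨by omega⟩
  have hcast : ∀ g m, ((θ g m : ℤ) : ZMod p) = ((θ g ((m : ZMod p).val : ℤ) : ℤ) : ZMod p) := by
    intro g m
    obtain ⟨k, hk⟩ : ∃ k : ℤ, m = ((m : ZMod p).val : ℤ) + k * p := by
      refine ⟨m / p, ?_⟩
      rw [ZMod.val_intCast]
      linarith [Int.emod_add_ediv_mul m p]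
    conv_lhs => rw [hk, hshiftk]
    simp
  let act : G → ZMod p → ZMod p := fun g r => ((θ g (r.val : ℤ) : ℤ) : ZMod p)
  have hact : ∀ (g : G) (m : ℤ), act g (m : ZMod p) = ((θ g m : ℤ) : ZMod p) := fun g m => (hcast g m).symm
  have hactmul : ∀ g h r, act (g * h) r = act g (act h r) := fun g h r => by
    show _ = act g ((θ h (r.val : ℤ) : ℤ) : ZMod p)
    rw [hact, ← hmul]
  have hact1 : ∀ r, act 1 r = r := fun r => by simp [act, hone]
  let f : G →* Equiv.Perm (ZMod p) :=
    MonoidHom.mk' (fun g => ⟨act g, act g⁻¹, fun r => by rw [← hactmul, inv_mul_cancel, hact1],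
      fun r => by rw [← hactmul, mul_inv_cancel, hact1]⟩) fun g h => Equiv.ext fun r => hactmul g h r
  refine ⟨f.ker, ⟨by rw [Subgroup.index_ker]; exact Nat.card_pos.ne'⟩, fun g hg hfin => ?_⟩
  refine ⟨M g, fun m hm => ?_⟩
  obtain ⟨j, hj⟩ : ∃ j : ℤ, θ g m = m + j * p := by
    have h1 : ((θ g m : ℤ) : ZMod p) = (m : ZMod p) := by
      rw [← hact]
      exact congrArg (fun e : Equiv.Perm (ZMod p) => e (m : ZMod p)) (MonoidHom.mem_ker.1 hg)
    obtain ⟨j, hj⟩ := (ZMod.intCast_eq_intCast_iff_dvd_sub _ _ _).1 h1.symm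
    exact ⟨j, by linarith⟩
  have hpow : ∀ k : ℕ, θ (g ^ k) m = m + k * j * p := by
    intro k
    induction k with
    | zero => simp [hone]
    | succ k ih =>
      rw [pow_succ', hmul, ih, hshiftk, hj]
      push_cast
      ring
  obtain ⟨k, hk, hk1⟩ := isOfFinOrder_iff_pow_eq_one.1 hfin
  have h2 := hpow k
  rw [hk1, hone] at h2
  have hj0 : j = 0 := by
    rcases mul_eq_zero.1 (show (k : ℤ) * j * p = 0 by linarith) with h3 | h3
    · exact (mul_eq_zero.1 h3).resolve_left (by omega)
    · omega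
  have h := hθ g m 0 (by simp [K, hm])
  simp only [Nat.cast_zero, zero_mul, add_zero] at h
  rw [h, hj, hj0]
  simp

end Vale.Agent.P192
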