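import Vale.Agent.P196.Window

/-!
P192: a local system of bounded displacements for a presented group lifts to an action.
-/

namespace Vale.Agent.P192

open Vale.Agent.P196

variable {G : Type*} [Group G] {n : ℕ}

/-- Words of length at most `L + 2` that are trivial in the group fix every integer. -/
def IsSystem (π : FreeGroup (Fin n) →* G) (L N : ℕ) (d : ℤ → Fin n × Bool → ℤ) : Prop :=
  (∀ m l, |d m l| ≤ N) ∧
    ∀ (w : List (Fin n × Bool)) (m : ℤ), w.length ≤ L + 2 → π (FreeGroup.mk w) = 1 →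
      walk d w m = m

theorem mk_cons (l : Fin n × Bool) (w : List (Fin n × Bool)) :
    FreeGroup.mk (l :: w) = FreeGroup.mk [l] * FreeGroup.mk w := by
  rw [FreeGroup.mul_mk]; rfl

theorem exists_lift {π : FreeGroup (Fin n) →* G} (hπ : Function.Surjective π)
    {S : Set (FreeGroup (Fin n))} (hSπ : Subgroup.normalClosure S = π.ker) {L N : ℕ}
    (hL : ∀ s ∈ S, s.toWord.length ≤ L) {d : ℤ → Fin n × Bool → ℤ} (hd : IsSystem π L N d) :
    ∃ σ : G →* Equiv.Perm ℤ, BoundedDisp σ ∧
      ∀ w m, σ (π (FreeGroup.mk w)) m = walk d w m := by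
  classical
  obtain ⟨hdN, hloc⟩ := hd
  have hcancel : ∀ (i : Fin n) (s : Bool) (m : ℤ), walk d [(i, !s), (i, s)] m = m := by
    intro i s m
    refine hloc _ m (by simp) ?_
    have h1 : FreeGroup.mk [(i, !s), (i, s)]
        = (FreeGroup.mk [(i, s)])⁻¹ * FreeGroup.mk [(i, s)] := by
      rw [FreeGroup.inv_mk, FreeGroup.mul_mk]
      simp [FreeGroup.invRev]
    rw [h1, inv_mul_cancel, map_one]
  let e : Fin n → Equiv.Perm ℤ := fun i =>
    ⟨fun m => walk d [(i, true)] m, fun m => walk d [(i, false)] m,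
      fun m => hcancel i true m, fun m => hcancel i false m⟩
  let ψ : FreeGroup (Fin n) →* Equiv.Perm ℤ := FreeGroup.lift e
  have hψ : ∀ (w : List (Fin n × Bool)) (m : ℤ), ψ (FreeGroup.mk w) m = walk d w m := by
    intro w m
    induction w with
    | nil => simp [walk, ← FreeGroup.one_eq_mk]
    | cons l w ih =>
      rw [mk_cons, map_mul, Equiv.Perm.mul_apply, ih]
      obtain ⟨i, _ | _⟩ := l <;>
        simp [ψ, FreeGroup.lift_mk, e, walk]
  have hker : π.ker ≤ ψ.ker := by
    rw [← hSπ]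
    refine Subgroup.normalClosure_le_normal fun s hs => MonoidHom.mem_ker.2 (Equiv.ext fun m => ?_)
    have hsπ : π s = 1 := MonoidHom.mem_ker.1 (hSπ ▸ Subgroup.subset_normalClosure hs)
    rw [← FreeGroup.mk_toWord (x := s), hψ, Equiv.Perm.one_apply]
    exact hloc _ m ((hL s hs).trans (Nat.le_add_right L 2)) (by rwa [FreeGroup.mk_toWord])
  let σ : G →* Equiv.Perm ℤ := π.liftOfSurjective hπ ⟨ψ, hker⟩
  have hσ : ∀ x, σ (π x) = ψ x := fun x =>
    MonoidHom.liftOfRightInverse_comp_apply π _ _ ⟨ψ, hker⟩ x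
  refine ⟨σ, fun g => ?_, fun w m => by rw [hσ, hψ]⟩
  obtain ⟨x, rfl⟩ := hπ g
  refine ⟨N * x.toWord.length, fun m => ?_⟩
  rw [hσ, ← FreeGroup.mk_toWord (x := x), hψ, FreeGroup.mk_toWord]
  exact (walk_local hdN x.toWord m m fun j _ => rfl).2

end Vale.Agent.P192
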