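import Vale.Agent.P192.Germ
import Vale.Agent.P192.Lift

/-!
P192: in a periodic finitely presented group, bounded local systems have uniformly bounded orbits.
-/

namespace Vale.Agent.P192

open Vale.Agent.P196

variable {G : Type*} [Group G] {n : ℕ}

theorem orbit_bddAbove (hfg : Group.FG G) (htor : ∀ g : G, IsOfFinOrder g)
    {σ : G →* Equiv.Perm ℤ} (hb : BoundedDisp σ) {P : ℤ} (hP : 0 < P) (hper : RightPer σ P)
    (m : ℤ) : ∃ B : ℤ, ∀ g, σ g m ≤ B := by
  classical
  obtain ⟨H, hH, hfix⟩ := right_germ hP hper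
  have := hfg
  have := hH
  obtain ⟨T, hT⟩ : H.FG := (Group.fg_iff_subgroup_fg H).1 inferInstance
  have hTH : ∀ t ∈ T, t ∈ H := fun t ht => hT ▸ Subgroup.subset_closure ht
  choose M hM using fun t : T => hfix t (hTH t t.2) (htor _)
  obtain ⟨M₀, hM₀⟩ : ∃ M₀ : ℤ, ∀ t, M t ≤ M₀ := by
    obtain ⟨M₀, h⟩ := (Set.finite_range M).bddAbove
    exact ⟨M₀, fun t => h ⟨t, rfl⟩⟩
  have hHfix : ∀ h ∈ H, ∀ k, M₀ ≤ k → σ h k = k := by
    intro h hh
    rw [← hT] at hh
    induction hh using Subgroup.closure_induction with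
    | mem x hx => exact fun k hk => hM ⟨x, hx⟩ k ((hM₀ _).trans hk)
    | one => simp
    | mul x y _ _ hx hy =>
      intro k hk
      rw [map_mul, Equiv.Perm.mul_apply, hy k hk, hx k hk]
    | inv x _ hx =>
      intro k hk
      rw [map_inv, Equiv.Perm.inv_def, Equiv.symm_apply_eq, hx k hk]
  have hHle : ∀ h ∈ H, σ h m ≤ max m M₀ := fun h hh => by
    by_contra hlt
    push Not at hlt
    have := (σ h).injective (hHfix h hh (σ h m) ((le_max_right m M₀).trans hlt.le))
    rw [this] at hlt
    exact absurd (le_max_left m M₀) (not_le.2 hlt)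
  choose N hN using hb
  have : Finite (G ⧸ H) := Subgroup.finite_quotient_of_finiteIndex
  obtain ⟨C, hC⟩ := (Set.finite_range fun q : G ⧸ H => N q.out).bddAbove
  refine ⟨max m M₀ + C, fun g => ?_⟩
  obtain ⟨h, hh⟩ := QuotientGroup.mk_out_eq_mul H g
  have hg : g = (QuotientGroup.mk g : G ⧸ H).out * (h : G)⁻¹ := by rw [hh, mul_inv_cancel_right]
  have h1 := hHle (h : G)⁻¹ (H.inv_mem h.2)
  have h2 := abs_le.1 (hN (QuotientGroup.mk g : G ⧸ H).out (σ (h : G)⁻¹ m))
  have h3 : (N (QuotientGroup.mk g : G ⧸ H).out : ℤ) ≤ C := by exact_mod_cast hC ⟨_, rfl⟩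
  rw [hg, map_mul, Equiv.Perm.mul_apply]
  linarith

/-- The one-sided periodising map. -/
def foldR (a P m : ℤ) : ℤ := if a ≤ m then a + (m - a) % P else m

theorem foldR_step {α : Type*} (c : ℤ → α) {a P : ℤ} (hP : 0 < P) {R : ℕ}
    (ha : ∀ j : ℤ, |j| ≤ R → c (a + j) = c (a + P + j)) (m j : ℤ) (hj : |j| ≤ R) :
    c (foldR a P (m + 1) + j) = c (foldR a P m + 1 + j) := by
  by_cases h1 : a ≤ m
  · simp only [foldR, if_pos h1, if_pos (show a ≤ m + 1 by omega)]
    have e := Int.emod_add_ediv_mul (m - a) P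
    have l0 := Int.emod_nonneg (m - a) hP.ne'
    have l1 := Int.emod_lt_of_pos (m - a) hP
    rcases lt_or_eq_of_le (show (m - a) % P + 1 ≤ P by omega) with h | h
    · rw [show (m + 1 - a) % P = (m - a) % P + 1 by
        rw [show m + 1 - a = (m - a) % P + 1 + (m - a) / P * P by linarith,
          Int.add_mul_emod_self_right, Int.emod_eq_of_lt (by omega) h]]
      ring_nf
    · rw [show (m + 1 - a) % P = 0 by
        rw [show m + 1 - a = ((m - a) / P + 1) * P by linarith, Int.mul_emod_left]]
      rw [add_zero, ha j hj, show a + P + j = a + (m - a) % P + 1 + j by linarith]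
  · simp only [foldR, if_neg h1]
    by_cases h3 : a ≤ m + 1
    · rw [if_pos h3, show m + 1 - a = 0 by omega, Int.zero_emod, add_zero,
        show a = m + 1 by omega]
    · rw [if_neg h3]

theorem foldR_window {α : Type*} (c : ℤ → α) {a P : ℤ} (hP : 0 < P) {R : ℕ}
    (ha : ∀ j : ℤ, |j| ≤ R → c (a + j) = c (a + P + j)) (m : ℤ) :
    ∀ j : ℤ, |j| ≤ R → c (foldR a P m + j) = c (foldR a P (m + j)) := by
  have hpos : ∀ (k : ℕ) (j : ℤ), |j| + k ≤ R →
      c (foldR a P (m + k) + j) = c (foldR a P m + k + j) := by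
    intro k
    induction k with
    | zero => simp
    | succ k ih =>
      intro j hj
      push_cast at hj ⊢
      have h1 := foldR_step c hP ha (m + k) j (by have := Int.natCast_nonneg k; linarith)
      rw [← add_assoc m (k : ℤ) 1, h1]
      have h2 := ih (1 + j) (by have := abs_add_le (1 : ℤ) j; simp only [abs_one] at this; linarith)
      rw [← add_assoc, ← add_assoc] at h2
      rw [h2]
      ring_nf
  have hneg : ∀ (k : ℕ) (j : ℤ), |j| + k ≤ R →
      c (foldR a P (m - k) + j) = c (foldR a P m - k + j) := by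
    intro k
    induction k with
    | zero => simp
    | succ k ih =>
      intro j hj
      push_cast at hj ⊢
      have hj' : |j - 1| + (k : ℤ) ≤ R := by
        have := abs_sub j (1 : ℤ); simp only [abs_one] at this; linarith
      have h1 := foldR_step c hP ha (m - (k + 1)) (j - 1)
        (by have := Int.natCast_nonneg k; linarith)
      rw [show m - ((k : ℤ) + 1) + 1 = m - k by ring, ih (j - 1) hj'] at h1
      rw [show foldR a P (m - (k + 1)) + j = foldR a P (m - (k + 1)) + 1 + (j - 1) by ring, ← h1]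
      ring_nf
  intro j hj
  rcases le_total 0 j with h | h
  · obtain ⟨k, rfl⟩ := Int.eq_ofNat_of_zero_le h
    have := hpos k 0 (by rw [abs_of_nonneg h] at hj; simpa using hj)
    simp only [add_zero] at this
    exact this.symm
  · obtain ⟨k, hk⟩ := Int.eq_ofNat_of_zero_le (neg_nonneg.2 h)
    obtain rfl : j = -(k : ℤ) := by omega
    have := hneg k 0 (by rw [abs_of_nonpos h, neg_neg] at hj; simpa using hj)
    simp only [add_zero] at this
    simpa [sub_eq_add_neg] using this.symm

end Vale.Agent.P192
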