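import Vale.Agent.P192.Orbit

/-!
P192: a finitely presented periodic group acting by bounded powers of one bijection has finite image.
-/

namespace Vale.Agent.P192

open Vale.Agent.P196

variable {G : Type*} [Group G]

theorem range_finite [Group.IsFinitelyPresented G] (htor : ∀ g : G, IsOfFinOrder g)
    {X : Type*} (φ : Equiv.Perm X) (ρ : G →* Equiv.Perm X)
    (hρ : ∀ g, ∃ N : ℕ, ∀ x, ∃ k : ℤ, |k| ≤ N ∧ ρ g x = (φ ^ k) x) : Finite ρ.range := by
  classical
  obtain ⟨n, π, hπ, S, hS, hSπ⟩ := Group.IsFinitelyPresented.out (G := G)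
  obtain ⟨L, hL'⟩ := (hS.image fun s => s.toWord.length).bddAbove
  have hL : ∀ s ∈ S, s.toWord.length ≤ L := fun s hs => hL' ⟨s, hs, rfl⟩
  choose Nl hNl using fun l : Fin n × Bool => hρ (π (FreeGroup.mk [l]))
  let N : ℕ := ∑ l, Nl l
  have hk : ∀ x l, ∃ k : ℤ, |k| ≤ N ∧ ρ (π (FreeGroup.mk [l])) x = (φ ^ k) x := fun x l => by
    obtain ⟨k, h1, h2⟩ := hNl l x
    have h3 : Nl l ≤ N := Finset.single_le_sum (fun _ _ => Nat.zero_le _) (Finset.mem_univ l)
    exact ⟨k, h1.trans (by exact_mod_cast h3), h2⟩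
  choose κ hκN hκ using hk
  obtain ⟨B₁, hB₁⟩ := orbit_bound_above hπ hSπ N hL htor
  let R : ℕ := N * (L + 2)
  let B : ℕ := max B₁ R
  have horbit : ∀ x g, ∃ k : ℤ, |k| ≤ B ∧ ρ g x = (φ ^ k) x := by
    intro x g
    by_cases hper : ∃ p : ℤ, 0 < p ∧ p ≤ R ∧ (φ ^ p) x = x
    · obtain ⟨p, hp, hpR, hpx⟩ := hper
      obtain ⟨N', hN'⟩ := hρ g
      obtain ⟨k, -, hk'⟩ := hN' x
      refine ⟨k % p, ?_, ?_⟩
      · rw [abs_of_nonneg (Int.emod_nonneg k hp.ne')]
        have h1 := Int.emod_lt_of_pos k hp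
        have h2 : (R : ℤ) ≤ B := by exact_mod_cast le_max_right B₁ R
        omega
      · rw [hk']
        conv_lhs => rw [← Int.emod_add_ediv_mul k p, zpow_add, Equiv.Perm.mul_apply,
          mul_comm (k / p) p, zpow_mul, Equiv.Perm.zpow_apply_eq_self_of_apply_eq_self hpx]
    · push Not at hper
      let d : ℤ → Fin n × Bool → ℤ := fun m l => κ ((φ ^ m) x) l
      have hwalk : ∀ (w : List (Fin n × Bool)) (m : ℤ),
          ρ (π (FreeGroup.mk w)) ((φ ^ m) x) = (φ ^ walk d w m) x := by
        intro w m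
        induction w with
        | nil => simp [walk, ← FreeGroup.one_eq_mk]
        | cons l w ih =>
          rw [mk_cons, map_mul, map_mul, Equiv.Perm.mul_apply, ih, hκ, ← Equiv.Perm.mul_apply,
            ← zpow_add, walk, add_comm]
      have hd : IsSystem π L N d := by
        refine ⟨fun m l => hκN _ l, fun w m hw h1 => ?_⟩
        have h2 := hwalk w m
        rw [h1, map_one, Equiv.Perm.one_apply] at h2
        have h3 := (walk_local (d := d) (d' := d) (fun m l => hκN _ l) w m m fun j _ => rfl).2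
        have h4 : |walk d w m - m| ≤ (R : ℕ) :=
          h3.trans (by exact_mod_cast Nat.mul_le_mul_left N hw)
        have h5 := abs_le.1 h4
        have hfix : ∀ e : ℤ, (φ ^ (m + e)) x = (φ ^ m) x → (φ ^ e) x = x := fun e he => by
          rw [zpow_add, Equiv.Perm.mul_apply] at he
          exact (φ ^ m).injective he
        rcases lt_trichotomy (walk d w m) m with hlt | heq | hgt
        · refine absurd (hfix (m - walk d w m) ?_) (hper _ (by omega) (by omega))
          rw [show m + (m - walk d w m) = (m - walk d w m) + m by ring, zpow_add,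
            Equiv.Perm.mul_apply]
          nth_rewrite 1 [h2]
          rw [← Equiv.Perm.mul_apply, ← zpow_add, sub_add_cancel]
        · exact heq
        · refine absurd (hfix (walk d w m - m) ?_) (hper _ (by omega) (by omega))
          rw [add_sub_cancel]
          exact h2.symm
      obtain ⟨σ, -, hσ⟩ := exists_lift hπ hSπ hL hd
      obtain ⟨y, rfl⟩ := hπ g
      refine ⟨σ (π y) 0, ?_, ?_⟩
      · have h1 := hB₁ d hd σ hσ (π y) 0
        have h2 := hB₁ d hd σ hσ (π y)⁻¹ (σ (π y) 0)
        rw [← Equiv.Perm.mul_apply, ← map_mul, inv_mul_cancel, map_one, Equiv.Perm.one_apply] at h2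
        have h3 : (B₁ : ℤ) ≤ B := by exact_mod_cast le_max_left B₁ R
        rw [abs_le]
        omega
      · have h1 := hwalk y.toWord 0
        rw [← hσ, FreeGroup.mk_toWord] at h1
        simpa using h1
  let M : ℕ := 2 * B + 1
  have : Finite (G →* Equiv.Perm (Fin M)) :=
    Finite.of_injective (fun f : G →* Equiv.Perm (Fin M) => fun i => f (π (FreeGroup.of i)))
      fun f f' h => MonoidHom.ext fun g => by
        obtain ⟨y, rfl⟩ := hπ g
        exact DFunLike.congr_fun (FreeGroup.ext_hom (f.comp π) (f'.comp π) (congrFun h)) y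
  let Φ : G →* ((G →* Equiv.Perm (Fin M)) → Equiv.Perm (Fin M)) :=
    MonoidHom.pi fun f => f
  have hle : Φ.ker ≤ ρ.ker := by
    intro g hg
    refine MonoidHom.mem_ker.2 (Equiv.ext fun x => ?_)
    let O : Set X := Set.range fun h : G => ρ h x
    have hsub : O ⊆ ↑((Finset.Icc (-(B : ℤ)) B).image fun k => (φ ^ k) x) := by
      rintro _ ⟨h, rfl⟩
      obtain ⟨k, hk1, hk2⟩ := horbit x h
      exact Finset.mem_image.2 ⟨k, Finset.mem_Icc.2 (abs_le.1 hk1), hk2.symm⟩
    have hfin : O.Finite := (Finset.finite_toSet _).subset hsub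
    have := hfin.fintype
    have hcard : Fintype.card O ≤ M := by
      rw [← Nat.card_eq_fintype_card]
      refine (Nat.card_mono (Finset.finite_toSet _) hsub).trans ?_
      rw [Nat.card_coe_set_eq, Set.ncard_coe_finset]
      refine Finset.card_image_le.trans ?_
      simp [M]
      omega
    obtain ⟨ι⟩ := Function.Embedding.nonempty_of_card_le
      (show Fintype.card O ≤ Fintype.card (Fin M) by rwa [Fintype.card_fin])
    have hinv : ∀ h : G, ∀ y ∈ O, ρ h y ∈ O := by
      rintro h _ ⟨h', rfl⟩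
      exact ⟨h * h', by simp⟩
    let f : G →* Equiv.Perm O :=
      MonoidHom.mk' (fun g => ⟨fun y => ⟨ρ g y, hinv g y y.2⟩, fun y => ⟨ρ g⁻¹ y, hinv g⁻¹ y y.2⟩,
        fun y => Subtype.ext (by simp), fun y => Subtype.ext (by simp)⟩)
        fun g h => Equiv.ext fun y => Subtype.ext (by simp)
    have h1 : (Equiv.Perm.viaEmbeddingHom ι).comp f g = 1 :=
      congrFun (MonoidHom.mem_ker.1 hg) ((Equiv.Perm.viaEmbeddingHom ι).comp f)
    have h2 : f g = 1 := Equiv.Perm.viaEmbeddingHom_injective ι (by rw [map_one]; exact h1)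
    exact congrArg Subtype.val
      (congrArg (fun e : Equiv.Perm O => e ⟨x, 1, by simp⟩) h2)
  have hΦ : Φ.ker.FiniteIndex := ⟨by rw [Subgroup.index_ker]; exact Nat.card_pos.ne'⟩
  have : ρ.ker.FiniteIndex := Subgroup.finiteIndex_of_le hle
  apply Nat.finite_of_card_ne_zero
  rw [← Subgroup.index_ker]
  exact Subgroup.FiniteIndex.index_ne_zero

end Vale.Agent.P192
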