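import Vale.Agent.P192.Key

/-!
P192: uniform orbit bound.
-/

namespace Vale.Agent.P192

open Vale.Agent.P196

variable {G : Type*} [Group G] {n : ℕ}

/-- Directed reachability below a height. -/
def Reach (d : ℤ → Fin n × Bool → ℤ) (h : ℤ) : ℤ → ℤ → Prop :=
  Relation.ReflTransGen fun x y => x < h ∧ y < h ∧ ∃ l, y = x + d x l

theorem orbit_bound_above {π : FreeGroup (Fin n) →* G} (hπ : Function.Surjective π)
    {S : Set (FreeGroup (Fin n))} (hSπ : Subgroup.normalClosure S = π.ker) {L : ℕ} (N : ℕ)
    (hL : ∀ s ∈ S, s.toWord.length ≤ L) (htor : ∀ g : G, IsOfFinOrder g) :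
    ∃ B : ℕ, ∀ d : ℤ → Fin n × Bool → ℤ, IsSystem π L N d → ∀ σ : G →* Equiv.Perm ℤ,
      (∀ w m, σ (π (FreeGroup.mk w)) m = walk d w m) → ∀ g m, σ g m ≤ m + B := by
  classical
  let R : ℕ := N * (L + 2) + N
  let K : ℕ := Nat.card ((Fin (2 * R + 1) → Fin n × Bool → Set.Icc (-(N : ℤ)) N) ×
    (Fin N → Prop) × (Fin N → Fin N → Prop))
  refine ⟨K + N + 2, fun d hd σ hσ g m₀ => ?_⟩
  by_contra hfar
  push Not at hfar
  obtain ⟨hdN, hloc⟩ := hd
  let c : ℤ → Fin n × Bool → Set.Icc (-(N : ℤ)) N := fun m l => ⟨d m l, abs_le.1 (hdN m l)⟩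
  have hdc : ∀ {p q : ℤ}, c p = c q → d p = d q := fun h =>
    funext fun l => congrArg Subtype.val (congrFun h l)
  let st : ℤ → (Fin (2 * R + 1) → Fin n × Bool → Set.Icc (-(N : ℤ)) N) ×
      (Fin N → Prop) × (Fin N → Fin N → Prop) :=
    fun a => (fun t => c (a + ((t : ℤ) - R)), fun i => Reach d (a + N) m₀ (a + i),
      fun i j => Reach d (a + N) (a + i) (a + j))
  obtain ⟨i, k, hik, hK, heq⟩ : ∃ i k : ℕ, i < k ∧ k ≤ K ∧ st (m₀ + 1 + i) = st (m₀ + 1 + k) := by
    by_contra hno
    push Not at hno
    have hinj : Function.Injective fun t : Fin (K + 1) => st (m₀ + 1 + (t : ℕ)) := by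
      intro s t hst
      rcases lt_trichotomy (s : ℕ) t with h | h | h
      · exact absurd hst (hno s t h (Nat.lt_succ_iff.1 t.2))
      · exact Fin.ext h
      · exact absurd hst.symm (hno t s h (Nat.lt_succ_iff.1 s.2))
    have := Nat.card_le_card_of_injective _ hinj
    rw [Nat.card_eq_fintype_card, Fintype.card_fin] at this
    change K + 1 ≤ K at this
    omega
  let a : ℤ := m₀ + 1 + i
  let P : ℤ := (k : ℤ) - i
  have hP : 0 < P := by simp only [P]; omega
  have haP : m₀ + 1 + (k : ℤ) = a + P := by simp only [a, P]; ring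
  rw [haP] at heq
  have hwin : ∀ j : ℤ, |j| ≤ (R : ℕ) → c (a + j) = c (a + P + j) := fun j hj => by
    have hj' := abs_le.1 hj
    have ht : ((j + R).toNat : ℤ) = j + R := Int.toNat_of_nonneg (by omega)
    have := congrFun (congrArg Prod.fst heq) ⟨(j + R).toNat, by omega⟩
    simpa [st, a, ht] using this
  have hmark : ∀ j : Fin N, Reach d (a + N) m₀ (a + j) ↔ Reach d (a + P + N) m₀ (a + P + j) :=
    fun j => Iff.of_eq (congrFun (congrArg (fun q => q.2.1) heq) j)
  have hpair : ∀ j j' : Fin N,
      Reach d (a + N) (a + j) (a + j') ↔ Reach d (a + P + N) (a + P + j) (a + P + j') :=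
    fun j j' => Iff.of_eq (congrFun (congrFun (congrArg (fun q => q.2.2) heq) j) j')
  let d' : ℤ → Fin n × Bool → ℤ := fun m => d (foldR a P m)
  have hd' : IsSystem π L N d' := by
    refine ⟨fun m l => hdN _ l, fun w m hw h1 => ?_⟩
    have hd'N : ∀ m l, |d' m l| ≤ N := fun m l => hdN _ l
    have h2 := (walk_local (d := d) hd'N w m (foldR a P m) fun j hj => by
      have hjR : |j| ≤ (R : ℕ) :=
        hj.trans (by exact_mod_cast (Nat.mul_le_mul_left N hw).trans (Nat.le_add_right _ N))
      exact hdc (foldR_window c hP hwin m j hjR)).1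
    rw [hloc w _ hw h1] at h2
    linarith
  obtain ⟨σ', hb', hσ'⟩ := exists_lift hπ hSπ hL hd'
  have hgen : ∀ (l : Fin n × Bool) (m : ℤ),
      σ' (π (FreeGroup.mk [l])) m = m + d (foldR a P m) l := fun l m => by
    rw [hσ']; rfl
  have hfg : Group.FG G := Group.fg_of_surjective hπ
  have hT : Subgroup.closure (Set.range fun i => π (FreeGroup.of i)) = ⊤ := by
    rw [show Set.range (fun i => π (FreeGroup.of i)) = π '' Set.range FreeGroup.of from
        Set.range_comp π FreeGroup.of,
      ← MonoidHom.map_closure, FreeGroup.closure_range_of, Subgroup.map_top_of_surjective π hπ]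
  have hper : RightPer σ' P := rightPer_closed hb' P _ hT fun g hg => by
    obtain ⟨i', rfl⟩ := hg
    refine ⟨a, fun m hm => ?_⟩
    have : foldR a P (m + P) = foldR a P m := by
      rw [foldR, foldR, if_pos (by omega), if_pos hm, show m + P - a = m - a + P by ring,
        Int.add_emod_right]
    show σ' (π (FreeGroup.mk [(i', true)])) (m + P) = σ' (π (FreeGroup.mk [(i', true)])) m + P
    rw [hgen, hgen, this]
    ring
  obtain ⟨B', hB'⟩ := orbit_bddAbove hfg htor hb' hP hper m₀
  let Orb : ℤ → ℤ → Prop := fun u v => ∃ g, σ' g u = v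
  have orb_trans : ∀ {u v w}, Orb u v → Orb v w → Orb u w := fun ⟨g, hg⟩ ⟨h, hh⟩ =>
    ⟨h * g, by rw [map_mul, Equiv.Perm.mul_apply, hg, hh]⟩
  have hlow : ∀ u, u < a + N → d' u = d u := by
    intro u hu
    by_cases h : a ≤ u
    · refine hdc ?_
      have hjR : |u - a| ≤ (R : ℕ) := by
        rw [abs_of_nonneg (by omega)]; simp only [R]; push_cast; nlinarith
      have := foldR_window c hP hwin a (u - a) hjR
      have hfa : foldR a P a = a := by rw [foldR, if_pos le_rfl, sub_self, Int.zero_emod, add_zero]
      rw [hfa, add_sub_cancel] at this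
      exact this.symm
    · simp only [d', foldR, if_neg h]
  have hsame : ∀ u, a ≤ u → u < a + P + N → ∀ q : ℕ, d' (u + q * P) = d u := by
    intro u h1 h2 q
    have hfold : foldR a P (u + q * P) = foldR a P u := by
      rw [foldR, foldR, if_pos (by nlinarith), if_pos h1,
        show u + q * P - a = u - a + q * P by ring, Int.add_mul_emod_self_right]
    show d (foldR a P (u + q * P)) = d u
    rw [hfold]
    by_cases h3 : u < a + P
    · rw [foldR, if_pos h1, Int.emod_eq_of_lt (by omega) (by omega), add_sub_cancel]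
    · refine hdc ?_
      have hjR : |u - (a + P)| ≤ (R : ℕ) := by
        rw [abs_of_nonneg (by omega)]; simp only [R]; push_cast; nlinarith
      have hw := foldR_window c hP hwin (a + P) (u - (a + P)) hjR
      have hfa : foldR a P (a + P) = a := by
        rw [foldR, if_pos (by omega), add_sub_cancel_left, Int.emod_self, add_zero]
      rw [hfa, add_sub_cancel, hwin _ hjR, add_sub_cancel] at hw
      exact hw.symm
  have main : ∀ q : ℕ,
      (∀ j : Fin N, Reach d (a + N) m₀ (a + j) → Orb m₀ (a + j + q * P)) ∧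
        ∀ j j' : Fin N, Reach d (a + N) (a + j) (a + j') →
          Orb (a + j + q * P) (a + j' + q * P) := by
    intro q
    induction q with
    | zero =>
      have base : ∀ {u v}, Reach d (a + N) u v → Orb u v := by
        intro u v h
        induction h with
        | refl => exact ⟨1, by simp⟩
        | tail _ hstep ih =>
          obtain ⟨hx, -, l, rfl⟩ := hstep
          exact orb_trans ih ⟨π (FreeGroup.mk [l]), by rw [hgen, ← hlow _ hx]⟩
      simp only [Nat.cast_zero, zero_mul, add_zero]
      exact ⟨fun j h => base h, fun j j' h => base h⟩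
    | succ q ih =>
      let W : ℤ → ℤ → Prop := fun s u => ∃ w, a ≤ w ∧ Orb s (w + q * P) ∧
        (u = w ∨ (u < a ∧ w < a + N ∧ Reach d (a + N) w u))
      have hW : ∀ {s u v}, W s u → u < a + P + N → v < a + P + N → (∃ l, v = u + d u l) →
          W s v := by
        intro s u v hu hu1 hv1 hedge
        obtain ⟨l, rfl⟩ := hedge
        obtain ⟨w, hw, horb, hcase⟩ := hu
        have hdl := abs_le.1 (hdN u l)
        rcases hcase with rfl | ⟨hua, hwN, hreach⟩
        · by_cases hva : a ≤ u + d u l
          · refine ⟨_, hva, orb_trans horb ⟨π (FreeGroup.mk [l]), ?_⟩, Or.inl rfl⟩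
            rw [hgen]
            have := congrFun (hsame u hw hu1 q) l
            simp only [d'] at this
            rw [this]; ring
          · exact ⟨u, hw, horb, Or.inr ⟨by omega, by omega,
              Relation.ReflTransGen.single ⟨by omega, by omega, l, rfl⟩⟩⟩
        · have hr : Reach d (a + N) w (u + d u l) :=
            hreach.tail ⟨by omega, by omega, l, rfl⟩
          by_cases hva : a ≤ u + d u l
          · obtain ⟨jw, hjw⟩ := Int.eq_ofNat_of_zero_le (show 0 ≤ w - a by omega)
            obtain ⟨jv, hjv⟩ := Int.eq_ofNat_of_zero_le (show 0 ≤ u + d u l - a by omega)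
            have hwe : w = a + jw := by omega
            have hve : u + d u l = a + jv := by omega
            refine ⟨_, hva, orb_trans horb ?_, Or.inl rfl⟩
            rw [hwe, hve] at hr ⊢
            exact ih.2 ⟨jw, by omega⟩ ⟨jv, by omega⟩ hr
          · exact ⟨w, hw, horb, Or.inr ⟨by omega, hwN, hr⟩⟩
      refine ⟨fun j hj => ?_, fun j j' hj => ?_⟩
      · have key : ∀ {u}, Reach d (a + P + N) m₀ u →
            (u < a ∧ Reach d (a + N) m₀ u) ∨ W m₀ u := by
          intro u hu
          induction hu with
          | refl => exact Or.inl ⟨by simp only [a]; omega, Relation.ReflTransGen.refl⟩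
          | @tail x y _ hstep ihu =>
            rcases ihu with ⟨hxa, hreach⟩ | hWx
            · obtain ⟨-, -, l, rfl⟩ := hstep
              have hdl := abs_le.1 (hdN x l)
              have hr : Reach d (a + N) m₀ (x + d x l) :=
                hreach.tail ⟨by omega, by omega, l, rfl⟩
              by_cases hva : a ≤ x + d x l
              · obtain ⟨jv, hjv⟩ := Int.eq_ofNat_of_zero_le (show 0 ≤ x + d x l - a by omega)
                have hve : x + d x l = a + jv := by omega
                refine Or.inr ⟨_, hva, ?_, Or.inl rfl⟩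
                rw [hve] at hr ⊢
                exact ih.1 ⟨jv, by omega⟩ hr
              · exact Or.inl ⟨by omega, hr⟩
            · exact Or.inr (hW hWx hstep.1 hstep.2.1 hstep.2.2)
        rcases key ((hmark j).1 hj) with ⟨hlt, -⟩ | ⟨w, hw, horb, hcase⟩
        · omega
        · rcases hcase with rfl | ⟨hlt, -⟩
          · rw [show a + (j : ℤ) + ((q + 1 : ℕ) : ℤ) * P = a + P + j + q * P by push_cast; ring]
            exact horb
          · omega
      · have key : ∀ {u}, Reach d (a + P + N) (a + P + j) u → W (a + P + j + q * P) u := by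
          intro u hu
          induction hu with
          | refl => exact ⟨_, by omega, ⟨1, by simp⟩, Or.inl rfl⟩
          | tail _ hstep ihu => exact hW ihu hstep.1 hstep.2.1 hstep.2.2
        obtain ⟨w, hw, horb, hcase⟩ := key ((hpair j j').1 hj)
        rcases hcase with rfl | ⟨hlt, -⟩
        · rw [show a + (j : ℤ) + ((q + 1 : ℕ) : ℤ) * P = a + P + j + q * P by push_cast; ring,
            show a + (j' : ℤ) + ((q + 1 : ℕ) : ℤ) * P = a + P + j' + q * P by push_cast; ring]
          exact horb
        · omega
  obtain ⟨j, hj⟩ : ∃ j : Fin N, Reach d (a + N) m₀ (a + j) := by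
    by_contra hno
    push Not at hno
    have hall : ∀ w : List (Fin n × Bool),
        walk d w m₀ < a ∧ Reach d (a + N) m₀ (walk d w m₀) := by
      intro w
      induction w with
      | nil => exact ⟨by simp only [walk, a]; omega, Relation.ReflTransGen.refl⟩
      | cons l w ihw =>
        obtain ⟨h1, h2⟩ := ihw
        have hdl := abs_le.1 (hdN (walk d w m₀) l)
        have hr : Reach d (a + N) m₀ (walk d (l :: w) m₀) :=
          h2.tail ⟨by omega, by simp only [walk]; omega, l, rfl⟩
        refine ⟨?_, hr⟩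
        by_contra hge
        push Not at hge
        obtain ⟨jv, hjv⟩ := Int.eq_ofNat_of_zero_le (show 0 ≤ walk d (l :: w) m₀ - a by omega)
        have hlt : jv < N := by simp only [walk] at hjv; omega
        exact hno ⟨jv, hlt⟩ (by rwa [show a + ((⟨jv, hlt⟩ : Fin N) : ℤ) = walk d (l :: w) m₀ from by
          show a + (jv : ℤ) = _; omega])
    obtain ⟨x, rfl⟩ := hπ g
    have h1 := (hall x.toWord).1
    rw [← hσ, FreeGroup.mk_toWord] at h1
    simp only [a] at h1
    push_cast at hfar
    omega
  obtain ⟨g', hg'⟩ := (main ((B' - a).toNat + 1)).1 j hj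
  have h1 := hB' g'
  rw [hg'] at h1
  push_cast at h1
  have h2 := Int.self_le_toNat (B' - a)
  nlinarith [Int.natCast_nonneg (j : ℕ)]

end Vale.Agent.P192
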